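import Crest.Agent.X212.Hp13.SfU

/-!
# Row 212, ES-GENT (helper6): a periodic Morse function; a rank one crossing
-/

set_option autoImplicit false
set_option linter.unusedSectionVars false
noncomputable section
open scoped ContDiff Topology InnerProductSpace
open Set Function Filter Real

namespace Crest.Agent.X212.Gen6
open Crt72 (Op SF symA Op_apply)
open Rad96 (tt tt_apply)

theorem bdd {f : ℝ → ℝ} {p : ℝ} (hp : p ≠ 0) (hf : ContDiff ℝ ∞ f) (h : Periodic f p) (j : ℕ) :
    ∃ C, ∀ r, |iteratedDeriv j f r| ≤ C := by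
  have k : Periodic (iteratedDeriv j f) p := fun r => by
    rw [← congrFun (iteratedDeriv_comp_add_const j f p) r, funext h]
  obtain ⟨C, hC⟩ := (k.isBounded_of_continuous hp
    (hf.continuous_iteratedDeriv j (by exact_mod_cast le_top))).exists_norm_le
  exact ⟨C, fun r => hC _ ⟨r, rfl⟩⟩

theorem per_deriv {f : ℝ → ℝ} {p : ℝ} (h : Periodic f p) : Periodic (deriv f) p := fun r => by
  rw [← deriv_comp_add_const, funext h]

/-- periodic, with two quadratic critical points per period -/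
structure Mf (p s : ℝ) (f : ℝ → ℝ) : Prop where
  pos : 0 < s
  sm : ContDiff ℝ ∞ f
  per : Periodic f p
  zero : ∀ r, deriv f r = 0 → ∃ n : ℤ, r = n * (p / 2)
  q0 : ∀ᶠ r in 𝓝 0, deriv f r = s * r
  q1 : ∀ᶠ r in 𝓝 (p / 2), deriv f r = -s * (r - p / 2)

theorem ex_f0 {p : ℝ} (hp : p ≠ 0) : ∃ s f, Mf p s f := by
  let β : ContDiffBump (0 : ℝ) := ⟨1 / 4, 1 / 2, by norm_num, by norm_num⟩
  obtain ⟨c, hc⟩ : ∃ c, c * (p / 2) = π := ⟨π / (p / 2), div_mul_cancel₀ _ (by positivity)⟩
  have c0 : c ≠ 0 := fun h => pi_ne_zero (by rw [← hc, h, zero_mul])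
  let m : ℝ → ℝ := fun x => x * ((1 + β x) / 2)
  let g : ℝ → ℝ := fun r => c * arcsin (m (sin (c * r)))
  have sm : ContDiff ℝ ∞ fun r => m (sin (c * r)) := (contDiff_id.mul ((contDiff_const.add
    β.contDiff).div_const 2)).comp (contDiff_sin.comp (contDiff_const.mul contDiff_id))
  have lt : ∀ x, |x| ≤ 1 → |m x| < 1 := fun x h => by
    have a := β.nonneg (x := x)
    have b := β.le_one (x := x)
    rw [abs_mul, abs_of_nonneg (by positivity : 0 ≤ (1 + β x) / 2)]
    rcases lt_or_ge |x| (1 / 2) with k | k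
    · nlinarith [abs_nonneg x]
    · rw [β.zero_of_le_dist (k.trans_eq (Real.dist_0_eq_abs x).symm)]; linarith
  have sg : ContDiff ℝ ∞ g := contDiff_const.mul (contDiff_iff_contDiffAt.2 fun r =>
    have := abs_lt.1 (lt _ (abs_sin_le_one (c * r)))
    ((contDiffAt_arcsin this.1.ne' this.2.ne).comp r sm.contDiffAt :))
  have ap : ∀ r, g (r + p / 2) = -g r := fun r => by
    simp only [g, m, mul_add c, hc, sin_add_pi, β.neg, neg_mul, arcsin_neg, mul_neg]
  have d := fun r => (sg.continuous.integral_hasStrictDerivAt 0 r).hasDerivAt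
  have e : deriv (fun r => ∫ s in (0 : ℝ)..r, g s) = g := funext fun r => (d r).deriv
  have i := fun a b => sg.continuous.intervalIntegrable (μ := MeasureTheory.volume) a b
  have q : ∀ᶠ r in 𝓝 0, g r = c * c * r := by
    have t : Tendsto (fun r => c * r) (𝓝 0) (𝓝 0) := Continuous.tendsto' (by fun_prop) _ _ (by simp)
    filter_upwards [(continuous_sin.tendsto' _ _ sin_zero).comp t |>.eventually β.eventuallyEq_one,
      t.eventually (Icc_mem_nhds (neg_lt_zero.2 pi_div_two_pos) pi_div_two_pos)] with r a b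
    simp only [g, m, show β (sin (c * r)) = 1 from a, add_self_div_two, mul_one, arcsin_sin' b,
      mul_assoc]
  refine ⟨c * c, _, mul_self_pos.2 c0, contDiff_infty_iff_deriv.2 ⟨fun r => (d r).differentiableAt,
    by rwa [e]⟩, fun r => ?_, fun r h => ?_, by rwa [e], ?_⟩
  · have pg : Periodic g p := fun r => by
      rw [← add_halves p, ← add_assoc, ap, ap, neg_neg]
    have := intervalIntegral.integral_comp_add_right (a := 0) (b := p / 2) g (p / 2)
    simp only [ap, intervalIntegral.integral_neg, zero_add, add_halves] at this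
    rw [← intervalIntegral.integral_add_adjacent_intervals (i 0 r) (i r (r + p)),
      pg.intervalIntegral_add_eq r 0, zero_add,
      ← intervalIntegral.integral_add_adjacent_intervals (i 0 (p / 2)) (i _ p), ← this,
      add_neg_cancel, add_zero]
  · rw [e] at h
    have a := β.nonneg (x := sin (c * r))
    obtain ⟨n, hn⟩ := sin_eq_zero_iff.1 ((mul_eq_zero.1 (arcsin_eq_zero_iff.1
      ((mul_eq_zero.1 h).resolve_left c0))).resolve_right (by positivity))
    exact ⟨n, mul_left_cancel₀ c0 (by rw [← hn, ← hc]; ring)⟩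
  · have t : Tendsto (· - p / 2) (𝓝 (p / 2)) (𝓝 0) := Continuous.tendsto' (by fun_prop) _ _ (by simp)
    filter_upwards [t.eventually q] with r a
    rw [e, neg_mul, ← a, ← ap, sub_add_cancel]

theorem Mf.smul {p s t : ℝ} {f : ℝ → ℝ} (h : Mf p s f) (ht : 0 < t) : Mf p (t * s) fun r => t * f r :=
  ⟨mul_pos ht h.pos, contDiff_const.mul h.sm, fun r => by simp only [h.per r],
    fun r k => h.zero r ((mul_eq_zero.1 ((deriv_const_mul_field t).symm.trans k)).resolve_left ht.ne'),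
    h.q0.mono fun r k => by rw [deriv_const_mul_field, k, mul_assoc],
    h.q1.mono fun r k => by rw [deriv_const_mul_field, k]; ring⟩

theorem ex_f {p : ℝ} (hp : p ≠ 0) (k : ℕ) {ε : ℝ} (hε : 0 < ε) :
    ∃ s f, Mf p s f ∧ ∀ j ≤ k, ∀ r, |iteratedDeriv j f r| ≤ ε := by
  obtain ⟨s, f, h⟩ := ex_f0 hp
  choose C hC using bdd hp h.sm h.per
  have p0 : 0 < 1 + ∑ j ∈ Finset.range (k + 1), |C j| := by positivity
  refine ⟨_, _, h.smul (div_pos hε p0), fun j hj r => ?_⟩
  rw [iteratedDeriv_const_mul_field, abs_mul, abs_of_pos (div_pos hε p0), div_mul_eq_mul_div,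
    div_le_iff₀ p0]
  exact mul_le_mul_of_nonneg_left ((hC j r).trans ((le_abs_self _).trans ((Finset.single_le_sum
    (f := fun j => |C j|) (fun _ _ => abs_nonneg _) (Finset.mem_range_succ_iff.2 hj)).trans
      (le_add_of_nonneg_left zero_le_one)))) hε.le

theorem dd {f : ℝ → ℝ} {s x : ℝ} (h : ∀ᶠ r in 𝓝 x, deriv f r = s * (r - x)) :
    deriv f x = 0 ∧ deriv (deriv f) x = s :=
  ⟨by simpa using h.self_of_nhds, (EventuallyEq.deriv_eq h).trans (by simp)⟩

variable {X₁ X₀ : Type*} [NormedAddCommGroup X₁] [NormedSpace ℝ X₁] [CompleteSpace X₁]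
  [NormedAddCommGroup X₀] [InnerProductSpace ℝ X₀] [CompleteSpace X₀] {i L : X₁ →L[ℝ] X₀}
  {sf : (X₀ →L[ℝ] X₀) → (X₀ →L[ℝ] X₀) → ℤ} {b c : X₀ →L[ℝ] X₀}

theorem tt_mem (z : X₀) : tt z ∈ symA X₀ := fun x y => by
  simp only [tt_apply, real_inner_smul_left, real_inner_smul_right, real_inner_comm x]
  ring

/-- a crossing of rank one -/
theorem sf_one (H : SF i L (symA X₀) sf) (hb : b ∈ symA X₀) (hc : c ∈ symA X₀) (z : X₀) {s t : ℝ}
    (hs : 0 < s) (h : ∀ t r : ℝ, r ≠ 0 → Bijective (Op i L (b + t • c + r • tt z)))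
    (k : ∃ x ≠ 0, Op i L b x = 0) : sf (b + (0 : ℝ) • c + s • tt z) (b + t • c + (-s) • tt z) = -1 := by
  have m : ∀ t r : ℝ, b + t • c + r • tt z ∈ symA X₀ := fun t r =>
    add_mem (add_mem hb (Submodule.smul_mem _ _ hc)) (Submodule.smul_mem _ _ (tt_mem z))
  have n : ∀ x, Op i L b x = 0 → ⟪z, i x⟫_ℝ = 0 → x = 0 := fun x h1 h2 =>
    (injective_iff_map_eq_zero _).1 (h 0 1 one_ne_zero).1 x (by
      simpa [Op_apply, tt_apply, h2] using h1)
  have w : ∀ t r t' r' : ℝ, 0 < r * r' → sf (b + t • c + r • tt z) (b + t' • c + r' • tt z) = 0 :=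
    fun t r t' r' k => H.hom _ (m _ _) _ (m _ _) fun a ha => by
      convert h (t + a * (t' - t)) (r + a * (r' - r)) fun e => ?_ using 3
      · module
      · have := mul_self_pos.2 (left_ne_zero_of_mul k.ne')
        nlinarith [congrArg (r * ·) e, ha.1, ha.2, mul_nonneg ha.1 k.le,
          mul_nonneg (sub_nonneg.2 ha.2) this.le]
  have d : Module.finrank ℝ (Op i L b).ker = 1 := by
    obtain ⟨x, h0, hx⟩ := k
    refine finrank_eq_one_iff'.2 ⟨⟨x, hx⟩, fun e => h0 (congrArg Subtype.val e), fun y =>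
      ⟨⟪z, i y⟫_ℝ / ⟪z, i x⟫_ℝ, Subtype.ext (sub_eq_zero.1 (n _ ?_ ?_))⟩⟩
    · rw [map_sub, show Op i L b y = 0 from y.2, sub_zero]
      exact (map_smul ..).trans (by rw [hx, smul_zero])
    · simp [inner_sub_right, real_inner_smul_right, div_mul_cancel₀ _ fun e => h0 (n x hx e)]
  obtain ⟨ε, ⟨-, -, a⟩, hε⟩ := ((Deg23.jump H hb (tt_mem z) fun x hx h0 => by
    rw [tt_apply, real_inner_smul_left]
    exact mul_self_pos.2 fun e => h0 (n x hx e)).and self_mem_nhdsWithin).exists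
  have hε : 0 < ε := hε
  rw [← H.add _ (m _ _) _ (m 0 ε) _ (m _ _) (h _ _ hs.ne') (h _ _ hε.ne') (h _ _ (by linarith)),
    ← H.add _ (m 0 ε) _ (m 0 (-ε)) _ (m _ _) (h _ _ hε.ne') (h _ _ (by linarith))
      (h _ _ (by linarith)), w _ s _ ε (mul_pos hs hε), w _ (-ε) _ (-s) (by nlinarith [mul_pos hs hε])]
  simpa [d] using a

end Crest.Agent.X212.Gen6
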