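import Crest.Agent.X212.Gen6.Q
import Crest.Agent.X212.Gen6.Per
import Crest.Agent.X212.Cyl58.Ah
import Crest.Agent.X212.Es42.Psc

/-!
# Row 212, ES-GENT (helper6): the circle of flat connections
-/

set_option autoImplicit false
set_option linter.unusedSectionVars false
noncomputable section
open scoped Manifold ContDiff Topology InnerProductSpace
open MeasureTheory Function Filter Finset

namespace Crest.Agent.X212.Gen6
open An An.Pre Sob92 Cyf70 Sw Sw.En3 End23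
open Dl42 hiding dl
open Wz78 (SA)
open Dec47 (ay ei eqv_ay gau_mul gau_ei th_ei ay_a gr_ay adm_ay)
open Es42 (eq_ay gau_zpow sd_lin sd_D hol_ay)
open Pb50 (LG th_mul)

variable {κ lam ν : Type} [Fintype κ] [Fintype lam] [Fintype ν] [DecidableEq ν]
  {e : En3 κ lam ν} {θ v : e.YC} {a b : κ → e.Y.M → ℝ} {u g : e.Y.M → ℂ} {χ : e.Y.M → ℝ}
  {φ : e.Y.M → Eu ν} {c : ℝ}

variable (e) in
/-- one-forms -/
def Fo (a : κ → e.Y.M → ℝ) : Prop :=
  (∀ k, Sm e.Y.I (a k)) ∧ ∀ k y, ∑ j, e.D.F.P k j y * a j y = a k y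

variable (e) in
/-- flat connections -/
def Fl (a : κ → e.Y.M → ℝ) : Prop := Fo e a ∧ ∀ k y, st e (f0 e) k y + sd e a k y = 0

theorem Fo.ay (h : Fo e a) : Ay (⟨a, 0⟩ : e.YC) := ⟨h.1, contMDiff_const, h.2, fun _ => map_zero _⟩

theorem Fo.lin (h : Fo e a) (k : Fo e b) (r : ℝ) : Fo e fun k y => a k y + r * b k y :=
  ⟨fun i => (h.1 i).add (contMDiff_const.mul (k.1 i)), fun i y => by
    simp only [← h.2 i y, ← k.2 i y, mul_add, sum_add_distrib, mul_sum, mul_left_comm r]⟩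

theorem clo_lg (hg : Gau e.Y.I g) : e.Clo (lg e g) := ⟨fun k y => Pb50.sa_th e.D.F.toPre (hg.1 y) k,
  Pb50.th_P e.D.F g, fun i j y => (LG.of_gau hg y).closed e.D.F i j⟩

theorem sd_clo (h : e.Clo a) (k : κ) (y : e.Y.M) : sd e a k y = 0 :=
  sum_eq_zero fun i _ => sum_eq_zero fun j _ => mul_eq_zero_of_right _ (sub_eq_zero.2 (h.cl i j y))

theorem Fl.lin (h : Fl e a) (k : e.Clo b) (r : ℝ) : Fl e fun k y => a k y + r * b k y :=
  ⟨h.1.lin ⟨k.sm, k.pr⟩ r, fun i y => by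
    rw [sd_lin h.1.1 k.sm, sd_clo k, mul_zero, add_zero, h.2]⟩

theorem lg_eq (hu : Lg e u) (hg : Gau e.Y.I g) : ∃ (n : ℤ) (χ : e.Y.M → ℝ), Sm e.Y.I χ ∧
    ∀ k y, lg e g k y = e.D.F.D k χ y + n * lg e u k y := by
  obtain ⟨n, χ, s, h⟩ := hu.2 g hg
  refine ⟨n, χ, s, fun k y => ?_⟩
  rw [show g = fun y => u y ^ n * ei χ y from funext h, add_comm]
  exact (th_mul _ (.of_gau (gau_zpow hu.1 n).1 y) (.of_gau (gau_ei s) y) k).trans
    (congrArg₂ _ ((gau_zpow hu.1 n).2 k y) (th_ei _ (s y) k))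

variable (he : e.OK)
include he

theorem iζ (h : ∀ k, Sm e.Y.I (a k)) :
    Integrable (fun y => 4 * ∑ k, e.ζ y (none, some k) * a k y) e.D.F.μ := ii _ fun y =>
  SA.mul contMDiffAt_const (SA.sum _ fun k _ => SA.mul (sm_ζ he _ y) (h k y))

theorem hol_lin (h : ∀ k, Sm e.Y.I (a k)) (k : ∀ k, Sm e.Y.I (b k)) (r : ℝ) :
    hol (⟨fun k y => a k y + r * b k y, φ⟩ : e.YC) =
      hol (⟨a, 0⟩ : e.YC) + r * hol (⟨b, 0⟩ : e.YC) := by
  simp only [hol, ← integral_const_mul r, ← integral_add (iζ he h) ((iζ he k).const_mul r), mul_add,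
    sum_add_distrib, mul_left_comm _ r, ← mul_sum]

theorem hol_eq (hu : Lg e u) (s : Sm e.Y.I χ) {t : ℝ}
    (h : ∀ k y, a k y = e.D.F.D k χ y + t * lg e u k y) : hol (⟨a, φ⟩ : e.YC) = t * per e u := by
  rw [show a = _ from funext₂ h, hol_lin he (fun k => e.D.F.sm_D s k) (clo_lg hu.1).sm]
  simp only [hol, integral_const_mul, he.clζ χ s, mul_zero, zero_add, per]

theorem per_eq (hu : Lg e u) (hg : Gau e.Y.I g) : ∃ n : ℤ, per e g = n * per e u :=
  let ⟨n, _, s, h⟩ := lg_eq hu hg; ⟨n, hol_eq he hu s h⟩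

theorem clo_eq (hu : Lg e u) (h : e.Clo a) : ∃ (t : ℝ) (χ : e.Y.M → ℝ), Sm e.Y.I χ ∧
    ∀ k y, a k y = e.D.F.D k χ y + t * lg e u k y := by
  obtain ⟨n, w, hw, k⟩ := he.sp
  obtain ⟨χ, r, s, k⟩ := k a h
  choose m ψ s' k' using fun i => lg_eq hu (hw i)
  have s2 : ∀ i y, SA e.Y.I (fun y => r i * ψ i y) y := fun i y => SA.mul contMDiffAt_const (s' i y)
  refine ⟨∑ i, r i * m i, fun y => χ y + ∑ i, r i * ψ i y, s.add fun y => SA.sum _ fun i _ => s2 i y,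
    fun j y => ?_⟩
  rw [k, Pre.D_def _ _ (fun y => _ + _), Wz78.dv_add' (s y) (SA.sum _ fun i _ => s2 i y),
    Wz78.dv_sum' _ fun i => s2 i y, sum_mul, add_assoc, ← sum_add_distrib]
  refine congrArg₂ _ rfl (sum_congr rfl fun i _ => ?_)
  rw [show dv _ _ (fun y => r i * ψ i y) y = r i * _ from dv_const_smul (r i) (SA.md (s' i y)),
    mul_assoc, ← mul_add]
  exact congrArg _ (k' i j y)

theorem ok_f (hu : Lg e u) (hp : per e u ≠ 0) {f : ℝ → ℝ} (sf : ContDiff ℝ ∞ f)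
    (hf : Periodic f (per e u)) : (wh e f e.h).OK :=
  { he with
    cyl := he.cyl
    sf := sf
    bf := bdd hp sf hf
    per := fun v v' a ⟨g, b, c⟩ => by
      obtain ⟨n, k⟩ := per_eq he hu b
      rw [show hol v' = hol v - per e g from (congrArg hol (eq_ay (v' := ⟨v'.a, v'.Φ⟩)
        (v := (⟨v.a, v.Φ⟩ : e.YC)) c)).trans (hol_ay he a b), k]
      exact ((per_deriv hf).int_mul n).sub_eq _
    sp := let ⟨n, u, a, b⟩ := he.sp; ⟨n, u, a, fun c k => b c ⟨k.1, k.2, k.3⟩⟩ }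

theorem pair (hu : Lg e u) (hp : per e u ≠ 0) (h : Fo e a)
    (k : ∀ k y, sd e a k y / 2 + 2 * c * e.ζ y (none, some k) = 0) : c = 0 ∧ e.Clo a := by
  have l := clo_lg (e := e) hu.1
  have := (nul_sd he h.1 l.sm h.2 l.pr).zero
  simp only [sd_clo l, fun i y => show sd e a i y = -c * (4 * e.ζ y (none, some i)) by
    linarith [k i y], zero_mul, sum_const_zero, zero_sub, mul_assoc, ← mul_sum, integral_neg,
    integral_const_mul (-c), neg_eq_zero, mul_eq_zero] at this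
  obtain rfl := this.resolve_right hp
  exact ⟨rfl, Es42.clo_of he h.1 h.2 fun i y => by linarith [k i y]⟩

theorem ndF (hu : Lg e u) (hp : per e u ≠ 0) (H : Ay θ) (h0 : θ.Φ = 0)
    (h : deriv (deriv e.f) (hol θ) ≠ 0) : NdF θ := (Cyc79.ndF_iff he H).2 fun t T h1 h2 => by
  obtain ⟨a, b⟩ := pair he hu hp (c := deriv (deriv e.f) (hol θ) * hol t) ⟨T.sa, T.pa⟩ fun k y => by
    simpa [Cyc79.Hes, h0, h1, qq] using congrFun (congrFun h2 k) y
  obtain ⟨r, χ, s, k⟩ := clo_eq he hu b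
  obtain rfl : r = 0 := (mul_eq_zero.1 ((hol_eq he hu s k).symm.trans
    ((mul_eq_zero.1 a).resolve_left h))).resolve_right hp
  exact ⟨-χ, s.neg, fun i y => by rw [k, Pre.D_def _ _ (-χ), dv_neg, neg_neg, zero_mul, add_zero]; rfl⟩

theorem clo_sub (h : Fl e a) (k : Fl e b) : e.Clo fun k y => a k y + -1 * b k y :=
  Es42.clo_of he (h.1.lin k.1 _).1 (h.1.lin k.1 _).2 fun i y => by
    linarith [sd_lin h.1.1 k.1.1 (-1) i y, h.2 i y, k.2 i y]

theorem eqv_fl (hu : Lg e u) (hp : per e u ≠ 0) (h : Fl e a) (k : Fl e b) {n : ℤ}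
    (hn : hol (⟨a, 0⟩ : e.YC) - hol (⟨b, 0⟩ : e.YC) = n * per e u) :
    Eqv (⟨a, 0⟩ : e.YC) ⟨b, 0⟩ := by
  obtain ⟨t, χ, s, q⟩ := clo_eq he hu (clo_sub he h k)
  have := hol_eq he hu (φ := 0) s q
  rw [hol_lin he h.1.1 k.1.1, neg_one_mul, ← sub_eq_add_neg, hn, mul_left_inj' hp] at this
  have z := gau_zpow hu.1 n
  have w := gau_mul z.1 (gau_ei s)
  refine ⟨_, w, (Cyc79.act_iff w.1).2 ⟨fun i y => ?_, fun y => by simp [cs]⟩⟩
  have : lg e (fun y => u y ^ n * ei χ y) i y = n * lg e u i y + _ := (th_mul _ (.of_gau z.1 y)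
    (.of_gau (gau_ei s) y) i).trans (congrArg₂ _ (z.2 i y) (th_ei _ (s y) i))
  subst t
  simp only [this]
  linarith [q i y]

variable (h0 : e.om = 0)
include h0

theorem gr_red (A : Ay v) (h : v.Φ = 0) (k : κ) (y : e.Y.M) : (gr v).a k y =
    (st e (f0 e) k y + sd e v.a k y) / 2 + 2 * deriv e.f (hol v) * e.ζ y (none, some k) := by
  simp only [gr_a he A, Ga, g0, qq, h, h0, Pi.zero_apply, inner_zero_right, PiLp.zero_apply]
  ring

theorem red_of (h : Fl e a) (k : deriv e.f (hol (⟨a, 0⟩ : e.YC)) = 0) : Red (⟨a, 0⟩ : e.YC) :=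
  ⟨⟨h.1.ay.adm, fun i y => by simp [gr_red he h0 h.1.ay rfl, h.2, k],
    fun y => by simp [gr, Bg.eD, Wz78.dir, Wz78.nab, fz, dv_const]⟩, rfl⟩

theorem fl_of (hu : Lg e u) (hp : per e u ≠ 0) (h : Fl e a) (r : Red v) :
    Fl e v.a ∧ deriv e.f (hol v) = 0 := by
  have A := ay_of r.1.1
  have B : Fo e v.a := ⟨A.sa, A.pa⟩
  have k := fun i y => (gr_red he h0 A r.2 i y).symm.trans (r.1.2.1 i y)
  obtain ⟨c, -⟩ := pair he hu hp (B.lin h.1 (-1)) (c := deriv e.f (hol v)) fun i y => by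
    linarith [sd_lin B.1 h.1.1 (-1) i y, h.2 i y, k i y]
  exact ⟨⟨B, fun i y => by have := k i y; rw [c] at this; linarith⟩, c⟩

theorem fc_fl (h : Fl e a) (y : e.Y.M) : e.cyl.fc (fz ⟨a, φ⟩) (y, 0) = 0 := by
  have o := Ah58.ok0 he
  have r := red_of o h0 h (by simp)
  have c := Wp42.crit_eC o r.1 y
  have k := Mp86.En.norm_fc o.cyl r.1.1 (x := (y, 0))
  have e2 : (lf (wh e 0 e.h)).cyl.kd (fz ⟨a, 0⟩) (y, 0) = 0 := by
    simp [Mp86.En.kd_eq, Fintype.sum_prod_type, Fintype.sum_option, Mp86.En.fc_none, Base.st,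
      Mp86.En.cyl_o, Mp86.En.o_some he]
  rw [Bg.eC, show (lf (wh e 0 e.h)).cyl.om (y, 0) = 0 from congrFun h0 y,
    show (lf (wh e 0 e.h)).cyl.qd (y, 0) _ _ = 0 from PiLp.ext fun _ => by simp [Bg.qd, fz]] at c
  simp only [smul_zero, sub_zero, deriv_zero, Pi.zero_apply, zero_smul, neg_zero] at c
  rw [e2, c, norm_zero, zero_pow two_ne_zero, mul_zero, sub_zero] at k
  exact norm_eq_zero.1 (pow_eq_zero_iff two_ne_zero |>.1 k)

theorem inv (hu : Lg e u) (h : Fl e a) (hf : Periodic e.f (per e u)) : e.Inv := by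
  rintro v _ hv ⟨g, hg, k⟩
  obtain rfl := eq_ay k
  obtain ⟨n, p⟩ := per_eq he hu hg
  have A := ay_of hv
  have l := clo_lg (e := e) hg
  rw [L_eq he A, L_eq he (ay_of (adm_ay he hv hg)), Dl42.Lt, Dl42.Lt, Pb50.Eqv.nm he (eqv_ay hg v),
    hol_ay he hv hg, p, (hf.int_mul n).sub_eq]
  have d : ∀ {w : e.YC}, Ay w → ∀ y, Dl42.dens w y = ∑ k, (st e (f0 e) k y + sd e w.a k y / 2) * w.a k y +
      e.w / 2 * ⟪(gr w).Φ y + e.b (nm w) • w.Φ y, w.Φ y⟫_ℝ := fun W y => by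
    simp only [Dl42.dens, gr_Φ he W, sub_add_cancel, GP, g0, h0, qq, inner_sub_left, sum_inner,
      real_inner_smul_left, Pi.zero_apply, PiLp.zero_apply, sub_zero, add_mul, sum_add_distrib,
      div_mul_eq_mul_div, ← sum_div]
    ring
  have s := (Es42.fy_vr A A).sΦ he |>.sl 0
  rw [Cyc79.vr_zero] at s
  congr 3
  refine (((nul_sd he h.1.1 l.sm h.1.2 l.pr).mul (-1)).add ((nul_sd he A.sa l.sm A.pa l.pr).mul
    (1 / 2))).eq (ii _ ?_) fun y => ?_
  · rw [funext (d A)]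
    exact fun y => (SA.sum _ fun k _ => SA.mul (((sm_st0 he k).add
      ((Es42.sm_sd he A.sa k).div_const 2)) y) (A.sa k y)).add (SA.mul contMDiffAt_const
        (SA.inner ((s y).add (SA.smul contMDiffAt_const (A.sΦ y))) (A.sΦ y)))
  · have q : (ay g v).a = fun k y => v.a k y + -1 * lg e g k y := funext₂ fun k y => by
      rw [ay_a hg.1, neg_one_mul]; rfl
    rw [d A, d (ay_of (adm_ay he hv hg)), (gr_ay he hv hg).2, Pb50.Eqv.nm he (eqv_ay hg v),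
      Dec47.ay_Φ, ← Pb50.cB_apply, ← Pb50.cB_apply, ← map_smul, ← map_add, Pb50.cB_apply,
      Pb50.cB_apply, Pb50.inner_cs (J := e.m.J) he.cyl.m.Jsq he.cyl.m.Jsk (hg.2 y), q]
    simp only [sd_lin A.sa l.sm]
    simp only [sd_clo l, fun k => eq_neg_of_add_eq_zero_left (h.2 k y), mul_zero,
      zero_mul, add_zero, sum_const_zero, zero_sub, mul_add, add_mul, sum_add_distrib, neg_mul,
      mul_neg, one_mul, sum_neg_distrib, div_mul_eq_mul_div, ← sum_div]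
    ring

end Crest.Agent.X212.Gen6
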