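import Crest.Agent.X212.Es42.Flat
import Crest.Agent.X212.Gap6.Simp
import Crest.Agent.X212.Hp13.Flr
import Crest.Agent.X212.Cyc79.Ed
import Crest.Agent.X212.Cyl58.PsC
import Crest.Agent.X212.Sw88.C0
import Crest.Agent.X212.Map44.Crit

/-!
# Row 212, ES-GENQ (helper6): Morse perturbations on rational homology spheres
-/

set_option autoImplicit false
set_option linter.unusedSectionVars false
noncomputable section
open scoped Manifold ContDiff Topology InnerProductSpace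
open MeasureTheory Set Function Filter

namespace Crest.Agent.X212.Gen6
open An An.Pre Sob92 Cyf70 Sw Sw.En3 End23
open Dl42 (τ GP Ay ay_of)
open Dec47 (ay eqv_ay ay_ay ay_one gau_mul gau_ei)
open Es42 (eq_ay norm_ay ok_lf)

variable {κ lam ν : Type} [Fintype κ] [Fintype lam] [Fintype ν] [DecidableEq ν]
  {e : En3 κ lam ν} {θ v v' v'' : e.YC}

theorem exists_bd {X : M.Mf 4} {nc : ℕ} {b : Bg X.I X.M κ lam ν nc} (h : b.OK) : ∃ C, b.Bd C := by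
  obtain ⟨C, hC⟩ := h.tame
  obtain ⟨C1, h1⟩ := h.cms
  obtain ⟨C2, h2⟩ := h.com
  obtain ⟨C3, h3⟩ := Prm93.Cb_unif fun i => Cb_add (Cb_D h.cms i)
    (Cb_sub (Cb_bil (.mul ℝ _) (h.cA i) h.cms) (Cb_bil (.mul ℝ _) h.cms (h.cA i)))
  exact ⟨fun j => max (C j) (max (C1 0) (max (C2 0) (C3 0))),
    Ell97.Tame_mono hC fun _ => le_max_left _ _, fun x => (CB_bound (h1.2 0) x).trans (by simp),
    fun i x => (CB_bound ((h3 i).2 0) x).trans (by simp), fun x => (CB_bound (h2.2 0) x).trans (by simp)⟩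

theorem eqv_refl (v : e.YC) : Eqv v v := by
  simpa only [ay_one] using eqv_ay (g := fun _ => 1) ⟨contMDiff_const, fun _ => norm_one⟩ v

theorem eqv_of0 (h : Eq0 v v') : Eqv v v' := let ⟨_, a, b⟩ := h; ⟨_, gau_ei a, b⟩

theorem nm_zero (hv : Ay v) (h : nm v ≤ 0) : v.Φ = 0 := by
  have c := hv.sΦ.continuous.norm.pow 2
  have := openPos e.D.F.toPre
  have h5 := (integral_eq_zero_iff_of_nonneg (fun _ => sq_nonneg _) (Mp86.En.itg c)).1
    (le_antisymm h (integral_nonneg fun _ => sq_nonneg _))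
  funext y
  simpa using congrFun ((c.ae_eq_iff_eq _ continuous_zero).1 h5) y

variable (he : e.OK)
include he

theorem eqv_trans (h : Eqv v v') (h' : Eqv v' v'') : Eqv v v'' := by
  obtain ⟨g, hg, h⟩ := h
  obtain ⟨g', hg', h'⟩ := h'
  rw [eq_ay h', eq_ay h, ay_ay he hg hg']
  exact eqv_ay (gau_mul hg' hg) v

theorem eqv_red (h : Eqv v v') (h0 : v.Φ = 0) : v'.Φ = 0 := by
  obtain ⟨g, hg, h⟩ := h
  funext y
  rw [eq_ay h, Pi.zero_apply, ← norm_eq_zero, norm_ay he hg, h0, Pi.zero_apply, norm_zero]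

/-- the spinors of critical points are bounded -/
theorem c0 (hw : 0 < e.w) (hb : e.b = 0) : ∃ C, ∀ v : e.YC, Crit v → ∀ y, ‖v.Φ y‖ ≤ C := by
  obtain ⟨C, hC⟩ := exists_bd (X := e.Z) he.cyl
  obtain ⟨R, -, hR⟩ := Sw88.hl_le e
  refine ⟨Sw88.kB (Fintype.card (Option κ)) C e.w (C 2) 0 R, fun v hv y => ?_⟩
  obtain ⟨χ, c1, c2, c3, c4⟩ := hC.tame.exh {(y, 0)} isCompact_singleton
  exact (Sw88.c0_core (X := e.Z) he.cyl hC hw hv.1 (g := fun _ => 0) (G := 0) (R := R)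
    contMDiff_const (fun x => (Map44.crit_D he hv x).trans (by simp [hb, Pre.D_def, dv_const]))
    (fun x => (congrArg _ (Map44.crit_C he hv x)).trans_le (by
      rw [neg_smul, norm_neg]; exact hR he _ _)) c1.1 (c1.2 2) c2 c3 (fun _ _ => by simp) (c4 _ rfl) :)

/-- no irreducible critical points near a reducible one without harmonic spinors -/
theorem iso_red (hb : e.b = 0) (hθ : Ay θ) (h0 : 0 ∉ spec θ) :
    ∃ ε > 0, ∀ v, Crit v → En3.dist 2 v θ ≤ ε → v.Φ = 0 := by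
  obtain ⟨f, -, g⟩ := Gap6.gapStmt e he θ hθ.adm
  obtain ⟨r, hr, h1⟩ := Metric.mem_nhds_iff.1 ((f 1).isClosed.isOpen_compl.mem_nhds fun h => h0 h.1)
  have h2 : ∀ l ∈ spec θ, min r 1 ≤ |0 - l| := fun l hl => by
    rw [zero_sub, abs_neg]
    exact not_lt.1 fun h => h1 (by simpa using (lt_min_iff.1 h).1) ⟨hl, abs_le.1 (lt_min_iff.1 h).2.le⟩
  have h3 := lt_min hr one_pos
  generalize min r 1 = δ at h2 h3
  obtain ⟨S, s0, hS⟩ := Cyl58.sup2 (V := ℝ) e.D.F.toPre e.Y.dim.le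
  obtain ⟨K, hK⟩ := isCompact_univ.exists_bound_of_continuousOn (continuous_finsetSum Finset.univ
    fun k _ => ((ContMDiff.continuous ((Dl42.sy he).sm k)).const_mul e.m.J).norm).continuousOn
  have p : 0 < 2 * (S * |K| + 1) := by positivity
  refine ⟨_, div_pos h3 p, fun v hv hd => ?_⟩
  have A := ay_of hv.1
  have B : Ay (⟨θ.a, v.Φ⟩ : e.YC) := ⟨hθ.sa, A.sΦ, hθ.pa, A.pΦ⟩
  have k1 : ∀ k y, |v.a k y - θ.a k y| ≤ S * (δ / (2 * (S * |K| + 1))) := fun k y =>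
    (hS _ ((A.sa k).sub (hθ.sa k)) y).trans (mul_le_mul_of_nonneg_left (((Finset.single_le_sum
      (f := fun k => e.D.F.nrm 2 (v.a k - θ.a k)) (fun _ _ => nrm_nonneg ..)
      (Finset.mem_univ k)).trans (le_add_of_nonneg_right (nrm_nonneg ..))).trans hd) s0)
  have k2 : ∀ y, ‖dr (⟨θ.a, v.Φ⟩ : e.YC) y‖ ≤ δ / 2 * ‖v.Φ y‖ := fun y => by
    have a := (Dl42.gr_Φ he A y).symm.trans (hv.2.2 y)
    rw [hb, Pi.zero_apply, zero_smul, sub_zero, GP, sub_eq_zero] at a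
    rw [Gap6.dr_eq he B, GP, a, ← Finset.sum_sub_distrib]
    refine (norm_sum_le _ _).trans ((Finset.sum_le_sum (g := fun k => S * (δ / (2 * (S * |K| + 1))) *
      (‖e.m.J * τ e k y‖ * ‖v.Φ y‖)) fun k _ => ?_).trans ?_)
    · rw [← sub_smul, norm_smul]
      exact mul_le_mul (k1 k y) ((e.m.J * τ e k y).le_opNorm _) (norm_nonneg _) (by positivity)
    · rw [← Finset.mul_sum, ← Finset.sum_mul, ← mul_assoc]
      refine mul_le_mul_of_nonneg_right ((mul_le_mul_of_nonneg_left ((le_abs_self _).trans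
        ((hK y trivial).trans (le_abs_self K))) (by positivity)).trans ?_) (norm_nonneg _)
      rw [mul_right_comm, ← mul_div_assoc, div_le_div_iff₀ p two_pos]
      nlinarith
  have k3 := (g 0 δ v.Φ B.adm h3.le h2).trans (integral_mono_of_nonneg (g := fun y =>
    (δ / 2) ^ 2 * ‖v.Φ y‖ ^ 2) (.of_forall fun _ => sq_nonneg _) ((Mp86.En.itg
      (A.sΦ.continuous.norm.pow 2)).const_mul _) (.of_forall fun y => by
        simpa only [zero_smul, sub_zero, mul_pow] using pow_le_pow_left₀ (norm_nonneg _) (k2 y) 2))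
  rw [integral_const_mul] at k3
  exact nm_zero A (by change _ * nm v ≤ _ * nm v at k3; nlinarith [sq_pos_of_pos h3])

/-- finitely many classes of irreducible critical points -/
theorem fin (hw : 0 < e.w) (hb : e.b = 0) (h : ∀ v₀ : e.YC, Crit v₀ → ∃ k, ∃ ε > 0, ∀ v, Crit v →
    En3.dist k v v₀ ≤ ε → v.Φ = 0 ∨ Eqv v₀ v) : ∃ (ι : Type) (_ : Finite ι) (x : ι → e.YC),
      (∀ i, Crit (x i) ∧ (x i).Φ ≠ 0) ∧ (∀ v, Crit v → v.Φ ≠ 0 → ∃ i, Eqv (x i) v) ∧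
        ∀ i j, Eqv (x i) (x j) → i = j := by
  let r : Setoid {v : e.YC // Crit v ∧ v.Φ ≠ 0} := ⟨fun v w => Eqv v.1 w.1, fun v => eqv_refl _,
    Cyc79.eqv_symm he, eqv_trans he⟩
  have j : ∀ i j : Quotient r, Eqv i.out.1 j.out.1 → i = j := fun i j h => Quotient.out_equiv_out.1 h
  refine ⟨Quotient r, not_infinite_iff_finite.1 fun _ => ?_, fun i => i.out.1, fun i => i.out.2,
    fun v a b => ⟨_, Quotient.mk_out (s := r) ⟨v, a, b⟩⟩, j⟩
  obtain ⟨C, hC⟩ := c0 he hw hb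
  obtain ⟨v₀, w, a, b, -, -, c⟩ := Cyl58.psyStmt.ps e he hw C _ (hyperfilter (Quotient r))
    (fun i => i.out.1) (fun i => ⟨i.out.2.1.1, hC _ i.out.2.1⟩) (tendsto_const_nhds.congr fun i => by
      simp [gn, En3.ip, i.out.2.1.2.1, i.out.2.1.2.2])
  obtain ⟨k, ε, hε, h⟩ := h v₀ a
  have s : ∀ i, En3.dist k (w i) v₀ ≤ ε → Eqv i.out.1 v₀ := fun i hi => eqv_trans he (b i)
    (Cyc79.eqv_symm he ((h _ (Pb50.Eqv.crit he i.out.2.1 (b i)) hi).resolve_left fun h0 =>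
      i.out.2.2 (eqv_red he (Cyc79.eqv_symm he (b i)) h0)))
  exact (Set.Subsingleton.finite fun i hi i' hi' => j i i' (eqv_trans he (s i hi)
    (Cyc79.eqv_symm he (s i' hi')))).notMem_hyperfilter
      ((c (fun i => i.out.2.1) k).eventually_le_const hε)

omit he in
theorem ex_small (Λ : Flr e) {p : Λ.Λ → Prop} (h : ∀ᶠ x in residual _, p x) (k : ℕ) {ε : ℝ}
    (hε : 0 < ε) : ∃ x, p x ∧ e.D.F.CB k (Λ.hm x) ε := by
  obtain ⟨C, hC⟩ := Λ.cb k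
  obtain ⟨x, a, b⟩ := (dense_of_mem_residual h).inter_open_nonempty _ Metric.isOpen_ball
    (Metric.nonempty_ball.2 (div_pos hε (by positivity : 0 < |C| + 1)))
  refine ⟨x, b, CB_mono (hC x) ?_⟩
  rw [mem_ball_zero_iff, lt_div_iff₀ (by positivity)] at a
  nlinarith [le_abs_self C, norm_nonneg x]

omit he in
theorem red_wh {θ : (lf e).YC} (r : Red θ) (h : e.Y.M → En ν) :
    Red (⟨θ.a, 0⟩ : (lf (wh e e.f h)).YC) := by
  obtain ⟨a, φ⟩ := θ
  obtain rfl : φ = 0 := r.2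
  exact ⟨⟨⟨r.1.1.1, r.1.1.2, r.1.1.3, r.1.1.4⟩, r.1.2.1,
    fun y => by simp [gr, Bg.eD, Wz78.dir, Wz78.nab, fz, dv_const]⟩, rfl⟩

omit he in
/-- **ES-GENQ** -/
theorem genQ (hS : SmaleStmt κ lam ν) (hI : IsoStmt κ lam ν) : GenQStmt κ lam ν :=
  fun e he h1 h0 hf k ε hε => by
  obtain ⟨⟨Λ⟩, ok⟩ := Hp13.Flr.flo κ lam ν e he
  have H : ∀ f h, (lf (wh e f h)).H1 := fun f h => ⟨fun a k => h1.ex a ⟨k.1, k.2, k.3⟩, h1.lg⟩
  obtain ⟨-, ⟨θ, r⟩, -, n⟩ := Es42.flatStmt _ (ok_lf he) (H _ _) h0 hf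
  obtain ⟨x, ⟨⟨a, b⟩, c⟩, d⟩ := ex_small Λ ((Gap6.simpStmt e (ok_lf he) Λ θ r (n θ r)).and
    (hS e (ok_lf he) h1 h0 hf Λ)) k hε
  have ok := (ok _ (Λ.herm x)).2
  refine ⟨e.h + Λ.hm x, hf ▸ ok, by rwa [add_sub_cancel_left], ?_⟩
  rw [← hf]
  have ol := ok_lf ok
  obtain ⟨i, -, u, n⟩ := Es42.flatStmt _ ol (H _ _) h0 hf
  have r' := red_wh r (e.h + Λ.hm x)
  have u' := fun v (hv : Crit v) h => eqv_of0 (u _ v r' ⟨hv, h⟩)
  obtain ⟨ι, _, y, y1, y2, y3⟩ := fin ol two_pos rfl fun v hv => (em (v.Φ = 0)).elim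
    (fun h => ⟨2, (iso_red ol rfl (ay_of hv.1) fun k => a
      (Cyc79.spec_sub ol (Cyc79.eqv_symm ol (u' v hv h)) k)).imp fun _ k =>
        ⟨k.1, fun w b c => .inl (k.2 w b c)⟩⟩) fun h =>
    (hI _ ol two_pos rfl hf v hv (ne_iff.1 h) (c v hv (ne_iff.1 h))).imp fun _ k => k.imp fun _ k =>
      ⟨k.1, fun w b c => .inr (k.2 w b c)⟩
  classical
  let _ := Fintype.ofFinite ι
  refine ⟨⟨ι, Unit, y, fun _ => ⟨θ.a, 0⟩⟩, ⟨ol, h0, i, ?_, ?_, fun i => ne_iff.1 (y1 i).2, fun _ => rfl,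
    fun v hv => ?_, ?_, ⟨()⟩, ⟨1, one_pos, fun _ _ _ _ _ => rfl⟩, fun _ => by simp [hf],
    fun _ => ⟨0, by simp [hf]⟩, fun _ => a, fun _ => b⟩, ⟨fun a k => h1.ex a ⟨k.1, k.2, k.3⟩, h1.lg⟩,
    hf, inferInstanceAs (Subsingleton Unit)⟩
  · rintro (i | j)
    exacts [(y1 i).1, r'.1]
  · rintro (i | j)
    exacts [c _ (y1 i).1 (ne_iff.1 (y1 i).2), (Cyc79.bij_red ol r').2 ⟨n _ r', a⟩]
  · by_cases h : v.Φ = 0
    · exact ⟨.inr (), u' v hv h⟩
    · exact (y2 v hv h).elim fun i k => ⟨.inl i, k⟩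
  · rintro (i | j) (i' | j') h
    exacts [congrArg _ (y3 _ _ h), ((y1 i).2 (eqv_red ol (Cyc79.eqv_symm ol h) rfl)).elim,
      ((y1 i').2 (eqv_red ol h rfl)).elim, rfl]

end Crest.Agent.X212.Gen6
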