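import Crest.Agent.X212.Gen6.Fl
import Crest.Agent.X212.Hp13.Mu
import Crest.Agent.X212.Cyc79.Ee

/-!
# Row 212, ES-GENT (helper6): Morse perturbations on `S² × S¹`
-/

set_option autoImplicit false
set_option linter.unusedSectionVars false
noncomputable section
open scoped Manifold ContDiff Topology InnerProductSpace
open MeasureTheory Function Filter

namespace Crest.Agent.X212.Gen6
open An An.Pre Sob92 Cyf70 Sw Sw.En3 End23
open Dl42 (Ay ay_of)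
open Ah58 (βV oF zv ξ1 s1 rkH)
open Map77 (i1 ext2 fm_ext)
open Crt72 (symA Op_apply)
open Rad96 (tt tt_apply)
open Es42 (ok_lf eq_ay)

variable {κ lam ν : Type} [Fintype κ] [Fintype lam] [Fintype ν] [DecidableEq ν]
  {e : En3 κ lam ν} {a b : κ → e.Y.M → ℝ} {u : e.Y.M → ℂ}

theorem ex_fq {p : ℝ} (hp : p ≠ 0) (x r : ℝ) : ∃ f : ℝ → ℝ, ContDiff ℝ ∞ f ∧ Periodic f p ∧
    deriv f x = 0 ∧ deriv (deriv f) x = r := by
  obtain ⟨s, f, h⟩ := ex_f0 hp
  have t : Tendsto (· - x) (𝓝 x) (𝓝 0) := Continuous.tendsto' (by fun_prop) _ _ (by simp)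
  exact ⟨fun y => r / s * f (y - x), contDiff_const.mul (h.sm.comp (contDiff_id.sub contDiff_const)),
    fun y => by simp only [add_sub_right_comm, h.per _], dd ((t.eventually h.q0).mono fun y k => by
      rw [deriv_const_mul_field, deriv_comp_sub_const, k, ← mul_assoc, div_mul_cancel₀ _ h.pos.ne'])⟩

theorem op_tt {X₁ X₀ : Type*} [NormedAddCommGroup X₁] [NormedSpace ℝ X₁] [NormedAddCommGroup X₀]
    [InnerProductSpace ℝ X₀] [CompleteSpace X₁] [CompleteSpace X₀] {i L : X₁ →L[ℝ] X₀} {a : X₀ →L[ℝ] X₀} {x : X₁} {z : X₀}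
    (h : Crt72.Op i L a x = 0) (k : ⟪z, i x⟫_ℝ = 0) : Crt72.Op i L (a - tt z) x = 0 := by
  rwa [Op_apply, sub_apply, tt_apply, k, zero_smul, sub_zero]

variable (e) in
/-- Clifford multiplication by a one-form -/
def βH (a : κ → e.Y.M → ℝ) : XH e 0 →L[ℝ] XH e 0 :=
  e.D.F.mulH 0 (pV e) (pV e) fun y => βV (lf e) y (zv (⟨a, 0⟩ : (lf e).YC) y)

variable (he : e.OK)
include he

theorem rep_β (H : Fo e a) :
    e.D.F.Rep (βH e a) fun u y => βV (lf e) y (zv (⟨a, 0⟩ : (lf e).YC) y) (u y) :=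
  Ah58.rep_β (ok_lf he) (Fo.ay (e := lf e) H) 0

theorem rf_eq (H : Fo e a) : rf (⟨a, 0⟩ : (lf e).YC) = βH e a - tt (tH e 0 (cst e)) +
      (8 * deriv (deriv e.f) (hol (⟨a, 0⟩ : e.YC))) • tt (tH e 0 (ξ1 e)) := by
  have k : rkH 0 (s1 he) = tt (tH e 0 (ξ1 e)) := by
    rw [show tH e 0 (ξ1 e) = e.D.F.toH 0 _ (s1 he) from dif_pos (s1 he).2]
    exact ContinuousLinearMap.ext fun x => by simp [rkH, incl_self, tt_apply]
  have := Ah58.aH_eq (ok_lf he) two_pos (Fo.ay (e := lf e) H)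
  simp only [Ah58.AH, Pi.zero_apply, zero_smul, sub_zero, deriv_zero, mul_zero, add_zero] at this
  rw [← k, ← add_sub_right_comm]
  exact congrArg (· - _) this

theorem βH_lin (H : Fo e a) (K : Fo e b) (t : ℝ) :
    βH e (fun k y => a k y + t * b k y) = βH e a + t • βH e b :=
  RepT_eq (rep_β he (H.lin K t)) (RepT_add (rep_β he H) (RepT_smul t (rep_β he K))) fun u =>
    funext fun y => by
    rw [show zv (⟨fun k y => a k y + t * b k y, 0⟩ : (lf e).YC) y =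
      zv (⟨a, 0⟩ : (lf e).YC) y + t • zv (⟨b, 0⟩ : (lf e).YC) y from
        ext2 (fm_ext fun o => by cases o <;> simp [zv]) (by simp [zv])]
    simp

theorem βH_sym (H : Fo e a) : βH e a ∈ symA _ := Ah58.symA_of (rep_β he H) fun y =>
  Ah58.βV_symm (ok_lf he) (by simp [zv, Map77.S.co_apply])

theorem harm (hu : Lg e u) (hp : per e u ≠ 0) :
    ∃ η, e.Clo η ∧ (∀ y, dvg e η y = 0) ∧ hol (⟨η, 0⟩ : e.YC) ≠ 0 := by
  have l := clo_lg (e := e) hu.1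
  have z : Fo e 0 := ⟨fun _ => contMDiff_const, fun _ _ => by simp⟩
  have A := z.lin ⟨l.sm, l.pr⟩ (1 / 2)
  obtain ⟨C, h⟩ := Cyl58.psyStmt.wl e he 0
  obtain ⟨_, ⟨g, hg, k⟩, c, -⟩ := h _ A.ay.adm
  obtain rfl := eq_ay k
  obtain ⟨n, q⟩ := per_eq he hu hg
  have B := ay_of (Dec47.adm_ay he A.ay.adm hg)
  have m := clo_lg (e := e) hg
  refine ⟨_, Es42.clo_of he B.sa B.pa fun i y => ?_, c, fun h => ?_⟩
  · rw [show (Dec47.ay g _).a = fun k y => ((0 : κ → e.Y.M → ℝ) k y + 1 / 2 * lg e u k y) + -1 * lg e g k y from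
      funext₂ fun k y => by rw [Dec47.ay_a hg.1, neg_one_mul]; rfl, Es42.sd_lin A.1 m.sm,
      Es42.sd_lin z.1 l.sm]
    simp [sd_clo l, sd_clo m, Cyc79.sd_zero]
  · have := Es42.hol_ay he A.ay.adm hg
    rw [show hol (Dec47.ay _ _) = 0 from h, q, hol_lin he z.1 l.sm, Cyc79.hol_zero, zero_add,
      show hol (⟨lg e u, 0⟩ : e.YC) = per e u from rfl, ← sub_mul, zero_eq_mul, or_iff_left hp] at this
    have : (1 : ℤ) = 2 * n := by exact_mod_cast (by linarith : (1 : ℝ) = 2 * n)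
    omega

variable (hS : SfStmt κ lam ν) (hu : Lg e u) (hp : per e u ≠ 0)
include hS hu hp

theorem ker0 (hw : 0 < e.w) (hf : e.f = 0) (F : Fo e a) :
    ∃ x ≠ 0, TT (⟨a, 0⟩ : e.YC) x = 0 ∧ ⟪tH e 0 (cst e), iH e x⟫_ℝ = 0 := by
  obtain ⟨η, l, c, n⟩ := harm he hu hp
  have B := Fo.ay ⟨l.sm, l.pr⟩
  have m := Cyc79.mk_mem (χ := 0) contMDiff_const B
  refine ⟨e.D.F.toH 1 _ ⟨_, m⟩, fun h => n ?_, (RepT_toH' (Cyc79.rep_TT hS Ah58.ahStmt he hw
    F.ay.adm) ⟨_, m⟩ 0 ?_).trans (map_zero _), ?_⟩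
  · have := congrArg Subtype.val (Ell97.toH_inj _ 1 _ (h.trans (map_zero _).symm))
    rw [show η = 0 from congrArg YC.a (Cyc79.mk_inj hw (this.trans Cyc79.mk_zero.symm)).2,
      Cyc79.hol_zero]
  · rw [Cyc79.hs_mk hw he F.ay B]
    refine .trans (congrArg₂ _ (funext fun y => ?_) ?_) Cyc79.mk_zero
    · simpa [Cyc79.dst] using c y
    · ext <;> simp [Cyc79.ya, Cyc79.Hes, Cyc79.gd, Dl42.qq, Cyc79.D0_zero, Pre.D_def, dv_zero, hf,
        sd_clo l]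
  · unfold tH
    split_ifs
    · simp only [incl_toH zero_le_one, inner_toH, Pre.ip, Ah58.inner_VV]
      simp [Map77.S.co_apply, cst]
    · exact inner_zero_left _

variable (h0 : e.om = 0)
include h0

/-- the degrees of the two points differ by one -/
theorem par (F : Fl e a) (hz : ∀ b, Fl e b → 0 ∉ spec (⟨b, 0⟩ : (lf e).YC)) {s t : ℝ} (hs : 0 < s)
    (h1 : deriv (deriv e.f) (hol (⟨a, 0⟩ : e.YC)) = s)
    (h2 : deriv (deriv e.f) (hol (⟨fun k y => a k y + t * lg e u k y, 0⟩ : e.YC)) = -s) :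
    sfE e (rf ⟨a, 0⟩) (rf ⟨fun k y => a k y + t * lg e u k y, 0⟩) = -1 := by
  have l := clo_lg (e := e) hu.1
  have L : Fo e (lg e u) := ⟨l.sm, l.pr⟩
  have := sf_one (Hp13.Mu.sf_lf (ok_lf he) hS) (sub_mem (βH_sym he F.1) (tt_mem (tH e 0 (cst e))))
    (βH_sym he L) (tH e 0 (ξ1 e)) (s := 8 * s) (t := t) (by positivity) (fun t r hr => ?_) ?_
  · rwa [rf_eq he F.1, rf_eq he (F.1.lin L t), βH_lin he F.1 L, h1, h2, add_sub_right_comm, mul_neg,
      ← add_zero (βH e a - _), ← zero_smul ℝ (βH e (lg e u)), add_assoc _ (0 • _) (t • _), ← add_smul,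
      zero_add]
  · obtain ⟨f, f1, f2, f3, f4⟩ := ex_fq hp (hol (⟨fun k y => a k y + t * lg e u k y, 0⟩ : e.YC)) (r / 8)
    have o := ok_f he hu hp f1 f2
    have G := F.lin l t
    have k := Hp13.Mu.bij_rf (ok_lf o) hS (Cyc79.datStmt hS Ah58.ahStmt)
      (red_of (ok_lf o) h0 G f3) (ndF (ok_lf o) hu hp (Fo.ay G.1) rfl (f4.trans_ne (by positivity)))
      (hz _ G)
    have q := (rf_eq o G.1).trans (congrArg (_ + · • _) ((congrArg (8 * ·) f4).trans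
      (mul_div_cancel₀ _ (by norm_num))))
    rw [← add_sub_right_comm, ← βH_lin he F.1 L]
    exact q ▸ k
  · have o := ok_f he hu hp (f := 0) contDiff_const fun _ => rfl
    have r := rf_eq o F.1
    simp only [deriv_zero, Pi.zero_apply, mul_zero, zero_smul, add_zero] at r
    obtain ⟨x, a1, a2, a3⟩ := ker0 (ok_lf o) hS hu hp two_pos rfl F.1
    exact ⟨x, a1, .trans (congrArg (Crt72.Op _ _ · x) r.symm) (op_tt a2 a3)⟩

theorem tor_of {s : ℝ} (M : Mf (per e u) s e.f) (F : Fl e a) (ha : hol (⟨a, 0⟩ : e.YC) = 0)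
    (hN : NoOld e) (hz : ∀ b, Fl e b → 0 ∉ spec (⟨b, 0⟩ : (lf e).YC))
    (h1 : ∀ l ≥ 0, Smp (⟨a, 0⟩ : (lf e).YC) l)
    (h2 : ∀ l ≥ 0, Smp (⟨fun k y => a k y + 1 / 2 * lg e u k y, 0⟩ : (lf e).YC) l) : Tor e u := by
  have l := clo_lg (e := e) hu.1
  have o := ok_lf he
  let α : Bool → κ → e.Y.M → ℝ := fun j => cond j (fun k y => a k y + 1 / 2 * lg e u k y) a
  have G : ∀ j, Fl e (α j) := Bool.rec F (F.lin l _)
  have ha' : hol (⟨α false, 0⟩ : e.YC) = 0 := ha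
  have hb : hol (⟨α true, 0⟩ : e.YC) = per e u / 2 :=
    (hol_lin he F.1.1 l.sm _).trans (by rw [ha, zero_add, one_div, inv_mul_eq_div]; rfl)
  have q : ∀ j, ∀ᶠ r in 𝓝 (hol (⟨α j, 0⟩ : e.YC)),
      deriv e.f r = cond j (-s) s * (r - hol (⟨α j, 0⟩ : e.YC)) :=
    Bool.rec (by simpa only [ha', sub_zero, cond_false] using M.q0)
      (by simpa only [hb, cond_true] using M.q1)
  have r : ∀ j, Red (⟨α j, 0⟩ : (lf e).YC) := fun j => red_of o h0 (G j) (dd (q j)).1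
  have sep : ∀ j j' g, Gau e.Y.I g → |hol (⟨α j, 0⟩ : e.YC) - hol (⟨α j', 0⟩ : e.YC) - per e g| ≤
      |per e u| / 4 → j = j' := fun j j' g hg h => by
    obtain ⟨n, k⟩ := per_eq he hu hg
    have w : ∀ m : ℤ, ¬|per e u / 2 - m * per e u| ≤ |per e u| / 4 := fun m h => by
      rw [show per e u / 2 - m * per e u = ((1 - 2 * m : ℤ) : ℝ) * per e u / 2 by push_cast; ring,
        abs_div, abs_mul, abs_two, ← Int.cast_abs] at h
      have : (1 : ℝ) ≤ (|1 - 2 * m| : ℤ) := by exact_mod_cast Int.one_le_abs (by omega)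
      nlinarith [abs_pos.2 hp]
    rw [k] at h
    rcases j with _ | _ <;> rcases j' with _ | _
    exacts [rfl, (w (-n) (by rw [← abs_neg]; convert h using 2; rw [hb, ha']; push_cast; ring)).elim,
      (w n (by rwa [hb, ha', sub_zero] at h)).elim, rfl]
  have mo : Mo (⟨Empty, Bool, Empty.elim, fun j => ⟨α j, 0⟩⟩ : (lf e).Gen) := by
    refine ⟨o, h0, inv o h0 hu F M.per, ?_, ?_, fun i => i.elim, fun _ => rfl, fun v hv => ?_, ?_,
      ⟨true⟩, ⟨_, by positivity, sep⟩, fun j => (dd (q j)).1, fun j => ⟨_, q j⟩, fun j => hz _ (G j),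
      Bool.rec h1 h2⟩
    · rintro (i | j)
      exacts [i.elim, (r j).1]
    · rintro (i | j)
      exacts [i.elim, (Cyc79.bij_red o (r j)).2 ⟨ndF o hu hp (Fo.ay (G j).1) rfl
        ((dd (q j)).2.trans_ne (by cases j <;> simp [M.pos.ne'])), hz _ (G j)⟩]
    · obtain ⟨c, d⟩ := fl_of o h0 hu hp F ⟨hv, hN v hv⟩
      obtain ⟨n, k⟩ := M.zero _ d
      obtain ⟨b, φ⟩ := v
      obtain rfl : φ = 0 := hN _ hv
      obtain ⟨m, rfl | rfl⟩ := n.even_or_odd'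
      · exact ⟨.inr false, eqv_fl o hu hp F c (n := -m) ((congrArg₂ _ ha k).trans
          (show _ = _ * per e u by push_cast; ring))⟩
      · exact ⟨.inr true, eqv_fl o hu hp (G true) c (n := -m) ((congrArg₂ _ hb k).trans
          (show _ = _ * per e u by push_cast; ring))⟩
    · rintro (i | j) (i' | j') ⟨g, hg, h⟩
      exacts [i.elim, i.elim, i'.elim, congrArg _ (sep j j' g hg (by
        rw [show hol (⟨α j', 0⟩ : e.YC) = hol (⟨α j, 0⟩ : e.YC) - per e g from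
          (congrArg hol (eq_ay h)).trans (Es42.hol_ay o (r j).1.1 hg), sub_sub_cancel, sub_self,
          abs_zero]; positivity))]
  obtain ⟨b1, b2, -⟩ := (Hp13.Mu.muStmt hS Ah58.ahStmt (Cyc79.bijStmt hS Ah58.ahStmt)
    (Cyc79.datStmt hS Ah58.ahStmt) Es42.flatStmt).rf e _ mo
  have s := fun j => Hp13.Mu.sym_rf o Ah58.ahStmt (r j).1.1
  have k := (Hp13.Mu.sf_lf o hS).add _ (Hp13.Mu.sym_rf o Ah58.ahStmt Hp13.Mu.adm_th) _ (s false) _
    (s true) b1 (b2 false) (b2 true)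
  rw [show sfE e (rf ⟨α false, 0⟩) (rf ⟨α true, 0⟩) = -1 from
    par he hS hu hp h0 F hz M.pos (dd (q false)).2 (dd (q true)).2] at k
  refine ⟨_, mo, hp, hN, ?_⟩
  rintro (_ | _) (_ | _) h
  exacts [absurd rfl h, ⟨-1, by simp only [mu0, ← k]; ring⟩, ⟨0, by simp only [mu0, ← k]; ring⟩,
    absurd rfl h]

theorem tor_ex (hP : Psc e) (hf : e.f = 0) {θ : e.YC} (r : Red θ) (k : ℕ) {ε : ℝ} (hε : 0 < ε) :
    ∃ f h s, (wh e f h).OK ∧ e.D.F.CB k h ε ∧ (∀ j ≤ k, ∀ r, |iteratedDeriv j f r| ≤ ε) ∧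
      Tor (wh e f h) u ∧ Mf (per e u) s f := by
  have A := ay_of r.1.1
  have l := clo_lg (e := e) hu.1
  have F := Fl.lin ⟨⟨A.sa, A.pa⟩, fun i y => by
    linarith [Es42.gr_red he h0 hf A r.2 i y, r.1.2.1 i y]⟩ l (-hol (⟨θ.a, 0⟩ : e.YC) / per e u)
  have ha := (hol_lin he (φ := 0) A.sa l.sm (-hol (⟨θ.a, 0⟩ : e.YC) / per e u)).trans
    (show _ = 0 by rw [show hol (⟨lg e u, 0⟩ : e.YC) = per e u from rfl, div_mul_cancel₀ _ hp,
      add_neg_cancel])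
  generalize (fun k y => θ.a k y + _ * lg e u k y) = a at F ha
  obtain ⟨δ, hδ, hp'⟩ := Es42.pscStmt _ (ok_lf he) hP h0
  obtain ⟨s, f, M, b⟩ := ex_f hp (k + 1) (lt_min hε hδ)
  have o1 := ok_f ((Hp13.Flr.flo κ lam ν e he).2 0 ⟨contMDiff_const, fun _ _ _ => by simp,
    fun _ => by simp, fun _ => by simp⟩).1 hu hp M.sm M.per
  obtain ⟨⟨Λ⟩, ok⟩ := Hp13.Flr.flo κ lam ν _ o1
  let Λ' : Flr (lf (wh e f 0)) := ⟨Λ.Λ, Λ.hm, fun x => let ⟨a, b, c, d⟩ := Λ.herm x; ⟨a, b, c, d⟩,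
    Λ.cb, fun h ⟨a, b, c, d⟩ => Λ.den h ⟨a, b, c, d⟩, Λ.one⟩
  obtain ⟨x, ⟨⟨-, h1⟩, -, h2⟩, c⟩ := ex_small Λ ((Gap6.simp_gen (ok_lf o1) Λ' (Fo.ay F.1) f).and
    (Gap6.simp_gen (ok_lf o1) Λ' (Fo.ay (F.lin l (1 / 2)).1) f)) k (lt_min hε hδ)
  have o2 := (ok _ (Λ.herm x)).2
  have c' : e.D.F.CB k (0 + Λ.hm x) (min ε δ) := by rwa [zero_add]
  obtain ⟨n, z⟩ := hp' f _ (ok_lf o2) (fun y => (CB_bound c' y).trans (min_le_right _ _)) fun r => by
    simpa using (b 1 (by simp) r).trans (min_le_right _ _)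
  exact ⟨f, _, s, o2, CB_mono c' (min_le_left _ _), fun j hj r => (b j (hj.trans k.le_succ) r).trans
    (min_le_left _ _), tor_of o2 hS hu hp h0 M F ha n
      (fun b G => z _ (Fo.ay (by exact G.1)).adm (fc_fl (ok_lf o2) h0 G)) h1 h2, M⟩

omit he hu hp h0 in
/-- **ES-GENT** -/
theorem genT : GenTStmt κ lam ν := fun _ _ he hu hp hP h0 hf ⟨_, r⟩ k _ hε =>
  let ⟨f, h, _, a, b, c, d, _⟩ := tor_ex he hS hu hp h0 hP hf r k hε; ⟨f, h, a, b, c, d⟩

end Crest.Agent.X212.Gen6
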